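import Vale.Agent.P226.EhrhardN

/-! Concentration on an interval forces a Gaussian lower tail for convex functions. -/

namespace Vale.Agent.P146E

open MeasureTheory ProbabilityTheory Real Finset Filter Topology Vale.Agent.P226

noncomputable section

variable {I : Type} [Fintype I]

/-- the standard Gaussian product measure -/
abbrev gm (I : Type) [Fintype I] : Measure (I → ℝ) := Measure.pi fun _ => gaussianReal 0 1

theorem conc {F : (I → ℝ) → ℝ} {K : NNReal} (hL : LipschitzWith K F)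
    (hc : ConvexOn ℝ Set.univ F) :
    ConcaveOn ℝ Set.univ fun t => Pinv (∫ x, Ph (t - F x) ∂gm I) := by
  let e := Fintype.equivFin I
  let T : (Fin (Fintype.card I) → ℝ) → I → ℝ := fun x i => x (e i)
  have hT : MeasurePreserving T (Measure.pi fun _ => gaussianReal 0 1) (gm I) := by
    have h := measurePreserving_piCongrLeft (fun _ : I => gaussianReal 0 1) e.symm
    convert h using 1
    funext x i
    simp [T, MeasurableEquiv.piCongrLeft, Equiv.piCongrLeft_apply_eq_cast]
  have lT : LipschitzWith 1 T := LipschitzWith.of_dist_le_mul fun x y => by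
    rw [NNReal.coe_one, one_mul]
    exact (dist_pi_le_iff dist_nonneg).2 fun i => dist_le_pi_dist x y (e i)
  have hm : ∀ t : ℝ, Measurable fun x => t - F x := fun t =>
    measurable_const.sub hL.continuous.measurable
  have hs : ∀ t : ℝ, LipschitzWith (K * 1) fun x => t - F (T x) := fun t =>
    LipschitzWith.of_dist_le_mul fun x y => by
      rw [dist_sub_left]
      exact (hL.comp lT).dist_le_mul x y
  have hG : ∀ t : ℝ, ∫ x, Ph (t - F (T x)) ∂(Measure.pi fun _ => gaussianReal 0 1) =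
      Ph (Pinv (∫ x, Ph (t - F x) ∂gm I)) := fun t => by
    rw [← Ph_Pinv_integral _ (hm t), ← hT.map_eq, integral_map hT.measurable.aemeasurable]
    exact (integrable_Ph_comp _ (hm t)).aestronglyMeasurable
  refine ⟨convex_univ, fun s _ r _ a b ha hb hab => ?_⟩
  obtain rfl : b = 1 - a := by linarith
  refine ehrhard_pi _ (hs _) (hs s) (hs r) ha (by linarith) (fun x y => ?_) (hG _) (hG s) (hG r)
  have h := hc.2 (Set.mem_univ (T x)) (Set.mem_univ (T y)) ha hb hab
  have e1 : T (a • x + (1 - a) • y) = a • T x + (1 - a) • T y := rfl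
  simp only [smul_eq_mul] at h ⊢
  rw [e1]
  linarith

theorem Ph_le_exp (y : ℝ) {l : ℝ} (hl : 0 ≤ l) : Ph y ≤ exp (l * y + l ^ 2 / 2) := by
  have h := measure_le_le_exp_mul_mgf (X := id) (μ := gaussianReal 0 1) (t := -l) y (by linarith)
    (integrable_exp_mul_gaussianReal (-l))
  rw [mgf_id_gaussianReal] at h
  refine h.trans (le_of_eq ?_)
  rw [← exp_add]
  congr 1
  simp

theorem ph0_le : ph 0 ≤ 1 := by
  have h := ph_zero_sq
  have h1 : 1 / (2 * π) ≤ 1 := by
    rw [div_le_one (by positivity)]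
    linarith [pi_gt_three]
  nlinarith [ph_pos 0]

theorem point {M b v : ℝ} (hM : 0 ≤ M) (hv : 0 ≤ v) :
    exp (-M * v) ≤ exp (-M * b) * (1 + ∑ j ∈ range (⌊b⌋₊ + 1),
      2 * exp (M * (j + 1)) * Ph (b - j - v)) := by
  have hs : ∀ j ∈ range (⌊b⌋₊ + 1), 0 ≤ 2 * exp (M * (j + 1)) * Ph (b - j - v) := fun j _ =>
    mul_nonneg (by positivity) (Ph_nonneg _)
  rw [← div_le_iff₀' (exp_pos _), ← exp_sub]
  by_cases h : b ≤ v
  · exact (exp_le_one_iff.2 (by nlinarith)).trans (le_add_of_nonneg_right (sum_nonneg hs))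
  have h1 : 0 ≤ b - v := by linarith
  have hj : ⌊b - v⌋₊ ∈ range (⌊b⌋₊ + 1) :=
    mem_range.2 (Nat.lt_succ_of_le (Nat.floor_le_floor (by linarith)))
  refine le_trans ?_ ((single_le_sum hs hj).trans (le_add_of_nonneg_left zero_le_one))
  have h2 : 1 / 2 ≤ Ph (b - ⌊b - v⌋₊ - v) := by
    rw [← Ph_zero]
    exact strictMono_Ph.monotone (by linarith [Nat.floor_le h1])
  have h3 : exp (-M * v - -M * b) ≤ exp (M * (⌊b - v⌋₊ + 1)) :=
    exp_le_exp.2 (by nlinarith [Nat.lt_floor_add_one (b - v)])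
  nlinarith [exp_pos (M * (⌊b - v⌋₊ + 1))]

theorem anti {ε : ℝ} (hε : 0 < ε) : ∃ c : ℝ, 0 ≤ c ∧ ∀ (I : Type) [Fintype I]
    (F : (I → ℝ) → ℝ) (K : NNReal) (a L M : ℝ), LipschitzWith K F → ConvexOn ℝ Set.univ F →
    (∀ x, 0 ≤ F x) → 1 ≤ L → 1 ≤ M → ε ≤ (gm I).real {x | |F x - a| ≤ L} →
    M⁻¹ * log (∫ x, exp (-M * F x) ∂gm I) ≤ 2 * L - a + M * (c * L ^ 2) := by
  set κ := ε * (Ph 1 - Ph (-1)) with hκ
  have d0 : 0 < Ph 1 - Ph (-1) := sub_pos.2 (strictMono_Ph (by norm_num))
  have κ0 : 0 < κ := mul_pos hε d0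
  set B := Pinv (1 - κ) with hB
  refine ⟨64 / κ ^ 2 + B ^ 2 / 2 + 5, by positivity, fun I _ F K a L M hL hc h0 L1 M1 hP => ?_⟩
  have mF := hL.continuous.measurable
  have hm : ∀ t : ℝ, Measurable fun x => t - F x := fun t => measurable_const.sub mF
  set ψ : ℝ → ℝ := fun t => ∫ x, Ph (t - F x) ∂gm I with hψ
  have hg : ∀ t, ψ t = Ph (Pinv (ψ t)) := fun t => Ph_Pinv_integral _ (hm t)
  set b := a - 2 * L with hb
  have mA : MeasurableSet {x | |F x - a| ≤ L} :=
    measurableSet_le (mF.sub_const a).abs measurable_const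
  have s1 : κ ≤ ψ (b + 4 * L) - ψ b := by
    rw [hψ, ← integral_sub (integrable_Ph_comp _ (hm _)) (integrable_Ph_comp _ (hm _))]
    refine (mul_le_mul_of_nonneg_right hP d0.le).trans ?_
    rw [← smul_eq_mul, ← setIntegral_const, ← integral_indicator mA]
    refine integral_mono ((integrable_const _).indicator mA)
      ((integrable_Ph_comp _ (hm _)).sub (integrable_Ph_comp _ (hm _))) fun x => ?_
    by_cases hx : x ∈ {x | |F x - a| ≤ L}
    · rw [Set.indicator_of_mem hx]
      obtain ⟨x1, x2⟩ := abs_le.1 (show |F x - a| ≤ L from hx)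
      exact sub_le_sub (strictMono_Ph.monotone (by linarith)) (strictMono_Ph.monotone (by linarith))
    · rw [Set.indicator_of_notMem hx]
      exact sub_nonneg.2 (strictMono_Ph.monotone (by linarith))
  have s2 : κ ≤ Pinv (ψ (b + 4 * L)) - Pinv (ψ b) := by
    have h1 : Pinv (ψ b) ≤ Pinv (ψ (b + 4 * L)) :=
      strictMono_Ph.le_iff_le.1 (by rw [← hg, ← hg]; linarith)
    have h2 := Ph_sub_le h1
    rw [← hg, ← hg] at h2
    nlinarith [ph0_le]
  have s3 : Pinv (ψ b) ≤ B := by
    have h1 : ψ (b + 4 * L) ≤ 1 := (hg _).trans_le (Ph_le_one _)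
    have h2 : 0 < ψ b := (Ph_pos _).trans_eq (hg _).symm
    refine strictMono_Ph.le_iff_le.1 ?_
    rw [← hg, hB, Ph_Pinv (by linarith) (by linarith)]
    linarith
  have s4 : ∀ u, 0 ≤ u → Pinv (ψ (b - u)) ≤ B - u * κ / (4 * L) := fun u hu => by
    have p0 : 0 < u + 4 * L := by linarith
    have h1 := (conc hL hc).2 (Set.mem_univ (b - u)) (Set.mem_univ (b + 4 * L))
      (by positivity : 0 ≤ 4 * L / (u + 4 * L)) (by positivity : 0 ≤ u / (u + 4 * L))
      (by field_simp; ring)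
    simp only [smul_eq_mul] at h1
    rw [show 4 * L / (u + 4 * L) * (b - u) + u / (u + 4 * L) * (b + 4 * L) = b by
      field_simp; ring, div_mul_eq_mul_div, div_mul_eq_mul_div, ← add_div, div_le_iff₀ p0] at h1
    change 4 * L * Pinv (ψ (b - u)) + u * Pinv (ψ (b + 4 * L)) ≤ Pinv (ψ b) * (u + 4 * L) at h1
    rw [le_sub_comm, div_le_iff₀ (by linarith)]
    nlinarith [mul_le_mul_of_nonneg_left s2 hu]
  set l := 8 * M * L / κ with hl
  have l0 : 0 ≤ l := by positivity
  set E := exp (M + l ^ 2 + B ^ 2 / 2) with hE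
  have E1 : 1 ≤ E := one_le_exp (by positivity)
  have s5 : ∀ j : ℕ, 2 * exp (M * (j + 1)) * ψ (b - j) ≤ 2 * E * (1 / 2) ^ j := fun j => by
    have h1 : ψ (b - j) ≤ exp (l * (B - j * κ / (4 * L)) + l ^ 2 / 2) := by
      rw [hg]
      exact (strictMono_Ph.monotone (s4 j (Nat.cast_nonneg j))).trans (Ph_le_exp _ l0)
    have h2 : exp (-1) ^ j ≤ (1 / 2 : ℝ) ^ j :=
      pow_le_pow_left₀ (exp_pos _).le (exp_neg_one_lt_d9.le.trans (by norm_num)) j
    rw [mul_assoc, mul_assoc]
    refine mul_le_mul_of_nonneg_left ((mul_le_mul_of_nonneg_left h1 (exp_pos _).le).trans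
      (le_trans ?_ (mul_le_mul_of_nonneg_left h2 (by linarith)))) zero_le_two
    rw [hE, ← exp_nat_mul, ← exp_add, ← exp_add, exp_le_exp, mul_sub,
      show l * (j * κ / (4 * L)) = 2 * M * j by rw [hl]; field_simp; ring]
    nlinarith [sq_nonneg (l - B), mul_le_mul_of_nonneg_right M1 (Nat.cast_nonneg (α := ℝ) j)]
  have iP : ∀ j : ℕ, Integrable (fun x => 2 * exp (M * (j + 1)) * Ph (b - j - F x)) (gm I) :=
    fun j => (integrable_Ph_comp _ (hm _)).const_mul _
  have iS := integrable_finsetSum (range (⌊b⌋₊ + 1)) fun j _ => iP j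
  have s6 : ∫ x, exp (-M * F x) ∂gm I ≤ exp (-M * b) * (5 * E) := by
    refine (integral_mono_of_nonneg (ae_of_all _ fun x => (exp_pos _).le)
      (((integrable_const 1).add iS).const_mul (exp (-M * b)))
      (ae_of_all _ fun x => point (by linarith) (h0 x))).trans ?_
    rw [integral_const_mul]
    refine mul_le_mul_of_nonneg_left ?_ (exp_pos _).le
    simp only [Pi.add_apply]
    rw [integral_add (integrable_const 1) iS, integral_finsetSum _ fun j _ => iP j]
    simp only [integral_const_mul, integral_const, probReal_univ, smul_eq_mul, mul_one]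
    have h1 := sum_le_sum fun j (_ : j ∈ range (⌊b⌋₊ + 1)) => s5 j
    rw [← mul_sum] at h1
    have h2 := mul_le_mul_of_nonneg_left (sum_geometric_two_le (⌊b⌋₊ + 1))
      (by linarith : 0 ≤ 2 * E)
    change 1 + ∑ j ∈ range (⌊b⌋₊ + 1), 2 * exp (M * (j + 1)) * ψ (b - j) ≤ _
    linarith
  have p0 : 0 < ∫ x, exp (-M * F x) ∂gm I := integral_exp_pos
    (Integrable.of_bound (by fun_prop) 1 (ae_of_all _ fun x => by
      rw [Real.norm_of_nonneg (exp_pos _).le]
      exact exp_le_one_iff.2 (by nlinarith [h0 x])))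
  have s7 := log_le_log p0 s6
  rw [log_mul (exp_pos _).ne' (by positivity), log_mul (by norm_num) (by positivity), log_exp,
    log_exp] at s7
  have s8 : log 5 ≤ 4 := (log_le_sub_one_of_pos (by norm_num)).trans (by norm_num)
  rw [inv_mul_le_iff₀ (by linarith)]
  have e1 : l ^ 2 = M * (M * (64 / κ ^ 2 * L ^ 2)) := by rw [hl]; field_simp; ring
  have q1 : 1 ≤ M * (M * L ^ 2) := one_le_mul_of_one_le_of_one_le M1
    (one_le_mul_of_one_le_of_one_le M1 (one_le_pow₀ L1))
  have q2 : M ≤ M * (M * L ^ 2) := le_mul_of_one_le_right (by linarith)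
    (one_le_mul_of_one_le_of_one_le M1 (one_le_pow₀ L1))
  have q3 := mul_le_mul_of_nonneg_left q1 (by positivity : 0 ≤ B ^ 2 / 2)
  rw [hb] at s7
  nlinarith

end

end Vale.Agent.P146E
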