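import Vale.Agent.P146E.Core
import Vale.Agent.P146E.Anti

/-! Typical fluctuations of the free energy. -/

namespace Vale.Agent.P146E

open MeasureTheory ProbabilityTheory Real Finset Filter Topology Vale.Agent.P146M Vale.Agent.P146

noncomputable section

section Gen

variable {S I : Type} [Fintype S] [Nonempty S] [Fintype I]

theorem lse_convex : ConvexOn ℝ Set.univ (lse : (S → ℝ) → ℝ) := by
  refine ⟨convex_univ, fun x _ y _ a b ha hb hab => ?_⟩
  obtain rfl : b = 1 - a := by linarith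
  set z := a • x + (1 - a) • y with hz
  have h1 := lse_add_ge z ((1 - a) • (x - y))
  have h2 := lse_add_ge z ((-a) • (x - y))
  rw [show z + (1 - a) • (x - y) = x by rw [hz]; module, gib_smul] at h1
  rw [show z + (-a) • (x - y) = y by rw [hz]; module, gib_smul] at h2
  simp only [smul_eq_mul]
  nlinarith [mul_le_mul_of_nonneg_left h1 ha, mul_le_mul_of_nonneg_left h2 hb]

theorem FG_convex (e : I → S → ℝ) : ConvexOn ℝ Set.univ (FG e) := by
  refine ⟨convex_univ, fun x _ y _ a b ha hb hab => ?_⟩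
  refine le_trans (le_of_eq ?_) (lse_convex.2 (Set.mem_univ _) (Set.mem_univ _) ha hb hab)
  simp only [FG, Pi.add_apply, Pi.smul_apply, smul_eq_mul, add_smul, sum_add_distrib, smul_sum,
    mul_smul]

theorem FG_lip (e : I → S → ℝ) : LipschitzWith (∑ i, ‖e i‖₊) (FG e) :=
  LipschitzWith.of_dist_le_mul fun x y => by
    have h := lse_lip (∑ i, y i • e i) (∑ i, (x i - y i) • e i)
    rw [← sum_add_distrib] at h
    simp only [← add_smul, add_sub_cancel] at h
    refine h.trans ((norm_sum_le _ _).trans ?_)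
    rw [NNReal.coe_sum, sum_mul]
    refine sum_le_sum fun i _ => ?_
    rw [norm_smul, mul_comm]
    exact mul_le_mul_of_nonneg_left (dist_le_pi_dist x y i) (norm_nonneg _)

end Gen

theorem sum_xP0 {n : ℕ} (p : Pr n) : ∑ σ : Cf n, xP σ p = 0 := by
  have hinv : Function.Involutive fun σ : Cf n => Function.update σ p.1.1 (!σ p.1.1) :=
    fun σ => by simp
  have h := Equiv.sum_comp hinv.toPerm fun σ => xP σ p
  have e : ∀ σ : Cf n, xP (hinv.toPerm _ σ) p = -xP σ p := fun σ => by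
    have hp : p.1.2 ≠ p.1.1 := p.2.ne'
    simp only [Function.Involutive.coe_toPerm, xP, sg, Function.update_self,
      Function.update_of_ne hp]
    cases σ p.1.1 <;> cases σ p.1.2 <;> simp [xB]
  simp only [e, sum_neg_distrib] at h
  linarith

theorem FF_nonneg (n : ℕ) (β : ℝ) (g : Pr n → ℝ) : 0 ≤ FF n β g := by
  have h := lse_add_ge (0 : Cf n → ℝ) (∑ p, g p • fun σ => √(β ^ 2 / n) * xP σ p)
  rw [zero_add] at h
  refine le_trans (add_nonneg (log_nonneg ?_) (le_of_eq ?_)) h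
  · simp only [Pi.zero_apply, exp_zero, sum_const, card_univ, nsmul_eq_mul, mul_one]
    exact_mod_cast Fintype.card_pos
  · simp only [gib, Pi.zero_apply, exp_zero, one_mul, Finset.sum_apply, Pi.smul_apply,
      smul_eq_mul]
    rw [sum_comm]
    simp only [← mul_sum, sum_xP0, mul_zero, sum_const_zero, zero_div]

theorem cheb {Ω : Type} [MeasurableSpace Ω] {μ : Measure Ω} [IsProbabilityMeasure μ] {X : Ω → ℝ}
    (hX : MemLp X 2 μ) {r : ℝ} (hr : 0 < r) :
    μ.real {x | r ≤ |X x - ∫ y, X y ∂μ|} ≤ Var[X; μ] / r ^ 2 :=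
  ENNReal.toReal_le_of_le_ofReal (div_nonneg (variance_nonneg _ _) (sq_nonneg _))
    (meas_ge_le_variance_div_sq hX hr)

theorem step {β ε : ℝ} (hβ : 1 < β) (hε : 0 < ε) : ∃ c, 0 < c ∧ ∃ τ0 : ℕ, ∀ (n τ : ℕ) (a L : ℝ),
    τ0 ≤ τ → τ ^ 62181 ≤ n → 1 ≤ L → ε ≤ (γ (Pr n)).real {g | |FF n β g - a| ≤ L} →
    c * (τ : ℝ) ^ 2 ≤ L ^ 2 := by
  have β0 : 0 < β := by linarith
  obtain ⟨c, c0, τ0, hc⟩ := core hβ
  obtain ⟨c1, c10, h1⟩ := anti hε
  obtain ⟨C, hC⟩ := Vale.Agent.P146.main β0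
  obtain ⟨τ1, h2⟩ := exists_nat_gt (|C| / ε)
  refine ⟨c / (c1 + 4), by positivity, max τ0 (τ1 + 1), fun n τ a L hτ hn L1 hP => ?_⟩
  have t1 : τ1 + 1 ≤ τ := le_of_max_le_right hτ
  have t2 : (1 : ℝ) ≤ τ := by exact_mod_cast le_trans (by omega) t1
  have t3 : (τ1 : ℝ) ≤ τ := by exact_mod_cast le_trans (by omega) t1
  have n0 : 1 ≤ n := (pow_pos (by omega) _).trans_le hn
  have n1 : (1 : ℝ) ≤ n := by exact_mod_cast n0
  have n2 : (τ : ℝ) ^ 883 ≤ n := by
    exact_mod_cast (Nat.pow_le_pow_right (by omega) (by norm_num)).trans hn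
  obtain ⟨hm, hv⟩ := hC n n0
  rw [freeEn_eq β0] at hm hv
  change MemLp (FF n β) 2 (γ (Pr n)) at hm
  change Var[FF n β; γ (Pr n)] ≤ _ at hv
  have hk := hc n τ ((c1 + 4) * L ^ 2) (le_of_max_le_left hτ) hn (by positivity)
  set M := (1 / (τ : ℝ)) ^ 441 * n with hM
  have e1 : M * (τ : ℝ) ^ 441 = n := by rw [hM]; field_simp
  have p1 : (1 : ℝ) ≤ (τ : ℝ) ^ 441 := one_le_pow₀ t2
  have M2 : τ * (τ : ℝ) ^ 441 ≤ M := by
    refine le_of_mul_le_mul_right ?_ (zero_lt_one.trans_le p1)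
    rw [e1]
    exact le_trans (le_of_eq (by ring)) n2
  have M1 : 1 ≤ M := (one_le_mul_of_one_le_of_one_le t2 p1).trans M2
  have v1 : Var[FF n β; γ (Pr n)] / M ^ 2 < ε := by
    have h3 : (n : ℝ) ^ (1 - 1 / 423 : ℝ) ≤ n := by
      simpa using rpow_le_rpow_of_exponent_le n1 (by norm_num : (1 - 1 / 423 : ℝ) ≤ 1)
    have h4 : Var[FF n β; γ (Pr n)] ≤ |C| * n := hv.trans
      (mul_le_mul (le_abs_self C) h3 (by positivity) (abs_nonneg C))
    have h5 : τ * (n : ℝ) ≤ M ^ 2 := by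
      rw [← e1]
      nlinarith
    rw [div_lt_iff₀ hε] at h2
    rw [div_lt_iff₀ (by positivity)]
    have h6 : |C| < τ * ε := h2.trans_le (mul_le_mul_of_nonneg_right t3 hε.le)
    nlinarith [mul_le_mul_of_nonneg_left h5 hε.le]
  have v2 : (∫ g, FF n β g ∂γ (Pr n)) ≤ a + L + M := by
    by_contra h
    refine absurd (hP.trans ((measureReal_mono fun g hg => ?_).trans
      (cheb hm (zero_lt_one.trans_le M1)))) (not_le.2 v1)
    have h3 := (abs_le.1 (show |FF n β g - a| ≤ L from hg)).2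
    have h4 : M ≤ -(FF n β g - ∫ g, FF n β g ∂γ (Pr n)) := by linarith [not_le.1 h]
    exact le_abs.2 (Or.inr h4)
  have v3 := h1 (Pr n) (FF n β) _ a L M (FG_lip _) (FG_convex _) (FF_nonneg n β) L1 M1 hP
  rw [div_mul_eq_mul_div, div_le_iff₀ (by positivity), mul_comm (L ^ 2)]
  refine hk ?_
  have q1 : 1 ≤ L ^ 2 := one_le_pow₀ L1
  have q2 : L ≤ M * L ^ 2 := by nlinarith
  have q3 : M ≤ M * L ^ 2 := by nlinarith
  have q4 : 0 ≤ M * β ^ 4 := by positivity
  nlinarith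

theorem lower {β ε : ℝ} (hβ : 1 < β) (hε : 0 < ε) : ∀ᶠ n : ℕ in atTop, ∀ a : ℝ,
    (disorder n).real {g | |freeEn n β g - a| ≤ (n : ℝ) ^ (1 / 62182 : ℝ)} ≤ ε := by
  obtain ⟨c, c0, τ0, h⟩ := step hβ hε
  have e1 : Tendsto (fun n : ℕ => (n : ℝ) ^ (1 / 62181 : ℝ)) atTop atTop :=
    (tendsto_rpow_atTop (by norm_num)).comp tendsto_natCast_atTop_atTop
  have e2 : Tendsto (fun n : ℕ => (n : ℝ) ^ (1 / 62181 - 1 / 62182 : ℝ)) atTop atTop :=
    (tendsto_rpow_atTop (by norm_num)).comp tendsto_natCast_atTop_atTop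
  filter_upwards [e1.eventually_ge_atTop τ0, e2.eventually_ge_atTop 1,
    e2.eventually_gt_atTop (4 / c), eventually_ge_atTop 1] with n a1 a2 a3 n0 a
  have n1 : (1 : ℝ) ≤ n := by exact_mod_cast n0
  rw [freeEn_eq (by linarith)]
  by_contra hP
  set x := (n : ℝ) ^ (1 / 62181 : ℝ) with hx
  set L := (n : ℝ) ^ (1 / 62182 : ℝ) with hL
  set y := (n : ℝ) ^ (1 / 62181 - 1 / 62182 : ℝ) with hy
  have L1 : 1 ≤ L := one_le_rpow n1 (by norm_num)
  have x1 : 1 ≤ x := one_le_rpow n1 (by norm_num)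
  have e : x = y * L := by
    rw [hx, hy, hL, ← rpow_add (by linarith)]
    norm_num
  have h1 := h n ⌊x⌋₊ a L (Nat.le_floor a1) (by
    have h1 := pow_le_pow_left₀ (Nat.cast_nonneg _) (Nat.floor_le (zero_le_one.trans x1)) 62181
    rw [show x ^ 62181 = n by
      rw [hx, one_div]
      exact_mod_cast rpow_inv_natCast_pow (Nat.cast_nonneg n) (by norm_num)] at h1
    exact_mod_cast h1) L1 (not_le.1 hP).le
  have t1 : (1 : ℝ) ≤ ⌊x⌋₊ := by exact_mod_cast Nat.le_floor (by simpa using x1)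
  have t2 : x ≤ 2 * ⌊x⌋₊ := by linarith [Nat.lt_floor_add_one x]
  have t3 := mul_le_mul_of_nonneg_left (pow_le_pow_left₀ (by linarith) t2 2) c0.le
  rw [div_lt_iff₀ c0] at a3
  have t4 : 4 < c * y ^ 2 := by nlinarith
  have t5 := mul_lt_mul_of_pos_right t4 (by positivity : 0 < L ^ 2)
  generalize (⌊x⌋₊ : ℝ) = τ at *
  rw [e] at t3
  nlinarith

theorem upper {β ε : ℝ} (hβ : 0 < β) (hε : 0 < ε) : ∀ᶠ n : ℕ in atTop, (disorder n).real
    {g | (n : ℝ) ^ (1 / 2 - 1 / 847 : ℝ) ≤ |freeEn n β g - ∫ h, freeEn n β h ∂disorder n|} ≤ ε := by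
  obtain ⟨C, hC⟩ := Vale.Agent.P146.main hβ
  have e2 : Tendsto (fun n : ℕ => (n : ℝ) ^ (1 / 423 - 2 / 847 : ℝ)) atTop atTop :=
    (tendsto_rpow_atTop (by norm_num)).comp tendsto_natCast_atTop_atTop
  filter_upwards [e2.eventually_ge_atTop (C / ε), eventually_ge_atTop 1] with n a1 n0
  have n1 : (0 : ℝ) < n := by exact_mod_cast n0
  obtain ⟨hm, hv⟩ := hC n n0
  have : IsProbabilityMeasure (disorder n) := by unfold disorder; infer_instance
  refine (cheb hm (by positivity)).trans ?_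
  rw [div_le_iff₀ hε] at a1
  rw [div_le_iff₀ (by positivity)]
  refine hv.trans ((mul_le_mul_of_nonneg_right a1 (by positivity)).trans (le_of_eq ?_))
  rw [mul_right_comm, mul_comm ε, sq, ← rpow_add n1, ← rpow_add n1]
  norm_num

end

end Vale.Agent.P146E
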